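import Mathlib

/-! Noncommutative formulas, matrix tuples and their binary encodings. -/

namespace Vale.Agent.P314

universe u

/-- Noncommutative formulas over `F` in the variables `x_0, …, x_{n-1}`. -/
inductive Formula (F : Type u) (n : ℕ) : Type u
  | var (i : Fin n) : Formula F n
  | const (a : F) : Formula F n
  | add (φ ψ : Formula F n) : Formula F n
  | mul (φ ψ : Formula F n) : Formula F n

/-- The size: the number of vertices, leaves included. -/
def Formula.size {F : Type u} {n : ℕ} : Formula F n → ℕ
  | .var _ => 1
  | .const _ => 1
  | .add φ ψ => φ.size + ψ.size + 1
  | .mul φ ψ => φ.size + ψ.size + 1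

/-- The polynomial in the free algebra computed by a formula. -/
noncomputable def Formula.poly {F : Type u} [Field F] {n : ℕ} :
    Formula F n → FreeAlgebra F (Fin n)
  | .var i => FreeAlgebra.ι F i
  | .const a => algebraMap F (FreeAlgebra F (Fin n)) a
  | .add φ ψ => φ.poly + ψ.poly
  | .mul φ ψ => φ.poly * ψ.poly

/-- An `n`-tuple of `d × d` matrices, for some `d`. -/
abbrev Tuple (F : Type u) (n : ℕ) : Type u := Σ d : ℕ, Fin n → Matrix (Fin d) (Fin d) F

/-- The input `(n, s)` in unary. -/
def encodeInput (p : ℕ × ℕ) : List Bool :=
  List.replicate p.1 true ++ false :: List.replicate p.2 true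

/-- A self-delimiting version of a word: its length in unary, a zero, then the word. -/
def delimit (w : List Bool) : List Bool := List.replicate w.length true ++ false :: w

/-- A tuple: the dimension in unary, a zero, then all entries, matrix by matrix, row by row. -/
def encodeTuple {F : Type u} (code : F → List Bool) {n : ℕ} (T : Tuple F n) : List Bool :=
  List.replicate T.1 true ++ false ::
    (List.finRange n).flatMap fun i => (List.finRange T.1).flatMap fun r =>
      (List.finRange T.1).flatMap fun c => delimit (code (T.2 i r c))

/-- A list of tuples: its length in unary, a zero, then the tuples. -/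
def encodeSet {F : Type u} (code : F → List Bool) {n : ℕ} (H : List (Tuple F n)) : List Bool :=
  List.replicate H.length true ++ false :: H.flatMap (encodeTuple code)

end Vale.Agent.P314
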