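import Vale.Agent.P314.Poly

/-! Linear independence of `q`-hyperlogarithms over the polynomial ring. -/

namespace Vale.Agent.P314

open Polynomial PowerSeries

/-- The series `z / (1 - a z)`. -/
noncomputable def mm {R : Type*} [CommRing R] (a : R) : R⟦X⟧ :=
  PowerSeries.X * rescale a (PowerSeries.mk 1)

lemma mm_spec {R : Type*} [CommRing R] (a : R) :
    (1 - PowerSeries.C a * PowerSeries.X) * mm a = PowerSeries.X := by
  have := congrArg (rescale a) (mk_one_mul_one_sub_eq_one R)
  rw [map_mul, map_sub, map_one, rescale_X] at this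
  rw [mm]
  linear_combination PowerSeries.X * this

variable {k : Type*} [Field k] {ι : Type*} [Fintype ι] [DecidableEq ι]

lemma coe_sg (q : k) (p : k[X]) : ((sg q p : k[X]) : k⟦X⟧) = rescale q (p : k⟦X⟧) := by
  ext n
  simp [sg_coeff, mul_comm]

/-- The combination attached to a finitely supported family of polynomials. -/
noncomputable def Lam (L : List ι → k⟦X⟧) : (List ι →₀ k[X]) →+ k⟦X⟧ :=
  Finsupp.liftAddHom fun w => (AddMonoidHom.mulRight (L w)).comp
    (coeToPowerSeries.ringHom : k[X] →+* k⟦X⟧).toAddMonoidHom

omit [Fintype ι] [DecidableEq ι] in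
lemma Lam_single (L : List ι → k⟦X⟧) (w : List ι) (c : k[X]) :
    Lam L (Finsupp.single w c) = (c : k⟦X⟧) * L w := by
  simp [Lam]

omit [Fintype ι] [DecidableEq ι] in
lemma Lam_smul (L : List ι → k⟦X⟧) (p : k[X]) (r : List ι →₀ k[X]) :
    Lam L (p • r) = (p : k⟦X⟧) * Lam L r := by
  induction r using Finsupp.induction_linear with
  | zero => simp
  | add f g hf hg => rw [smul_add, map_add, map_add, hf, hg, mul_add]
  | single w c => rw [Finsupp.smul_single, Lam_single, Lam_single, smul_eq_mul, Polynomial.coe_mul,
      mul_assoc]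

/-- Left quotient. -/
noncomputable def dq (i : ι) : (List ι →₀ k[X]) →+ (List ι →₀ k[X]) :=
  Finsupp.comapDomain.addMonoidHom (f := List.cons i) List.cons_injective

omit [Fintype ι] [DecidableEq ι] in
lemma dq_apply (i : ι) (r : List ι →₀ k[X]) (w : List ι) : dq i r w = r (i :: w) := rfl

/-- Coefficientwise substitution. -/
noncomputable def tau (q : k) : (List ι →₀ k[X]) →+ (List ι →₀ k[X]) :=
  Finsupp.mapRange.addMonoidHom (sg q).toAddMonoidHom

omit [Fintype ι] [DecidableEq ι] in
lemma tau_apply (q : k) (r : List ι →₀ k[X]) (w : List ι) : tau q r w = sg q (r w) := rfl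

lemma rescale_Lam (a : ι → k) (q : k) (L : List ι → k⟦X⟧) (h0 : L [] = 1)
    (hL : ∀ i w, rescale q (L (i :: w)) = L (i :: w) - mm (a i) * L w) (r : List ι →₀ k[X]) :
    rescale q (Lam L r) = Lam L (tau q r) - ∑ i, mm (a i) * Lam L (dq i (tau q r)) := by
  induction r using Finsupp.induction_linear with
  | zero => simp
  | add f g hf hg =>
    simp only [map_add, hf, hg, mul_add, Finset.sum_add_distrib]
    ring
  | single w c =>
    have e : tau q (Finsupp.single w c) = Finsupp.single w (sg q c) := by
      simp [tau]
    rw [e, Lam_single, Lam_single, map_mul, coe_sg]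
    cases w with
    | nil =>
      have : ∀ i, dq i (Finsupp.single ([] : List ι) (sg q c)) = 0 := by
        intro i
        ext w
        simp [dq_apply]
      simp [this, h0]
    | cons j w =>
      rw [Finset.sum_eq_single j]
      · have : dq j (Finsupp.single (j :: w) (sg q c)) = Finsupp.single w (sg q c) := by
          ext w'
          simp [dq_apply, Finsupp.single_apply]
        rw [this, Lam_single, hL, coe_sg]
        ring
      · intro i _ hij
        have : dq i (Finsupp.single (j :: w) (sg q c)) = 0 := by
          ext w'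
          simp [dq_apply, Finsupp.single_apply, hij.symm]
        simp [this]
      · simp

lemma PP_mm (a : ι → k) (i : ι) :
    ((PP a : k[X]) : k⟦X⟧) * mm (a i) = ((Polynomial.X * PQ a i : k[X]) : k⟦X⟧) := by
  rw [PP_eq a i]
  simp only [Polynomial.coe_mul, Polynomial.coe_sub, Polynomial.coe_one, Polynomial.coe_C,
    Polynomial.coe_X]
  linear_combination (PQ a i : k⟦X⟧) * mm_spec (a i)

theorem indep (a : ι → k) {q : k} (ha0 : ∀ i, a i ≠ 0) (hq : q ≠ 0)
    (hsep : ∀ i i' j, a i' * q ^ (j + 1) ≠ a i) (hinj : Function.Injective a)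
    (h1 : ∀ j, q ^ (j + 1) ≠ 1)
    (L : List ι → k⟦X⟧) (h0 : L [] = 1)
    (hL : ∀ i w, rescale q (L (i :: w)) = L (i :: w) - mm (a i) * L w) (N : ℕ) :
    ∀ r : List ι →₀ k[X], (∀ w, N ≤ w.length → r w = 0) → Lam L r = 0 → r = 0 := by
  induction N with
  | zero => intro r hr _; ext1 w; exact hr w (Nat.zero_le _)
  | succ N ih =>
    intro r
    induction hc : (r.support.filter fun w => w.length = N).card using Nat.strong_induction_on
      generalizing r with
    | _ c ihc =>
    intro hr hz
    by_cases hex : ∀ w : List ι, w.length = N → r w = 0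
    · refine ih r (fun w hw => ?_) hz
      rcases hw.eq_or_lt with e | e
      · exact hex w e.symm
      · exact hr w e
    exfalso
    push Not at hex
    obtain ⟨w0, hw0, hr0⟩ := hex
    set r' : List ι →₀ k[X] := (PP a * sg q (r w0)) • r - (r w0) • (PP a • tau q r -
      ∑ i, (Polynomial.X * PQ a i) • dq i (tau q r)) with hr'
    have ap : ∀ w, r' w = PP a * (sg q (r w0) * r w - r w0 * sg q (r w)) +
        r w0 * ∑ i, (Polynomial.X * PQ a i) * sg q (r (i :: w)) := by
      intro w
      simp only [hr', Finsupp.sub_apply, Finsupp.smul_apply, Finsupp.finset_sum_apply, dq_apply,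
        tau_apply, smul_eq_mul]
      ring
    have top : ∀ w, N ≤ w.length → r' w = PP a * (sg q (r w0) * r w - r w0 * sg q (r w)) := by
      intro w hw
      rw [ap, Finset.sum_eq_zero, mul_zero, add_zero]
      intro i _
      rw [hr (i :: w) (by simpa using hw), map_zero, mul_zero]
    have z' : Lam L r' = 0 := by
      have e := rescale_Lam a q L h0 hL r
      rw [hz, map_zero] at e
      simp only [hr', map_sub, map_sum, Lam_smul, hz, ← PP_mm, mul_assoc, ← Finset.mul_sum]
      linear_combination (r w0 : k⟦X⟧) * (PP a : k⟦X⟧) * e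
    have r'0 : r' = 0 := by
      refine ihc _ ?_ r' rfl (fun w hw => ?_) z'
      · rw [← hc]
        apply Finset.card_lt_card
        refine ⟨fun w hw => ?_, fun hsub => ?_⟩
        · rw [Finset.mem_filter, Finsupp.mem_support_iff] at hw ⊢
          refine ⟨fun e => hw.1 ?_, hw.2⟩
          rw [top w hw.2.ge, e]
          simp
        · have := hsub (Finset.mem_filter.2 ⟨Finsupp.mem_support_iff.2 hr0, hw0⟩)
          rw [Finset.mem_filter, Finsupp.mem_support_iff, top w0 hw0.ge] at this
          apply this.1
          ring
      · rw [top w (by omega), hr w hw]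
        simp
    have prop : ∀ w : List ι, w.length = N → ∃ c, r w = Polynomial.C c * r w0 := by
      intro w hw
      apply lemA hq h1 hr0
      have := top w hw.ge
      rw [r'0] at this
      exact sub_eq_zero.1 ((mul_eq_zero.1 this.symm).resolve_left (PP_ne a))
    cases w0 with
    | nil =>
      have e : r = Finsupp.single [] (r []) := by
        ext1 w
        cases w with
        | nil => simp
        | cons j w => rw [hr (j :: w) (by simp at hw0 ⊢; omega)]; simp
      rw [e, Lam_single, h0, mul_one, Polynomial.coe_eq_zero_iff] at hz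
      exact hr0 hz
    | cons i0 w1 =>
      choose c hc' using fun i => prop (i :: w1) (by simpa using hw0)
      have := lemB a ha0 hq hsep hinj (r := r w1) c hr0 (by
        have e := ap w1
        rw [r'0, Finsupp.zero_apply] at e
        have e2 : ∑ i, (Polynomial.X * PQ a i) * sg q (r (i :: w1)) =
            sg q (r (i0 :: w1)) * ∑ i, Polynomial.C (c i) * (Polynomial.X * PQ a i) := by
          rw [Finset.mul_sum]
          refine Finset.sum_congr rfl fun i _ => ?_
          rw [hc' i, map_mul, sg_C]
          ring
        rw [e2] at e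
        linear_combination -e) i0
      apply hr0
      rw [hc' i0, this]
      simp

end Vale.Agent.P314
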