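import Vale.Agent.P314.Zero
import Vale.Agent.P314.Defs

/-! The operators `T_i` and the series attached to a noncommutative polynomial. -/

namespace Vale.Agent.P314

open PowerSeries Submodule

universe u

variable (F : Type u) [Field F]

section
variable {R : Type*} [CommRing R] [Algebra F R]

/-- The operator `g ↦ (1 - σ)⁻¹ (z g / (1 - a z))`. -/
noncomputable def TT (b : ℕ → R) (a : R) : Module.End F R⟦X⟧ where
  toFun g := PowerSeries.mk fun l => b l * coeff l (mm a * g)
  map_add' g h := by ext l; simp [mul_add]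
  map_smul' c g := by ext l; simp

lemma TT_coeff (b : ℕ → R) (a : R) (g : R⟦X⟧) (l : ℕ) :
    coeff l (TT F b a g) = b l * coeff l (mm a * g) := by simp [TT]

lemma TT_spec {b : ℕ → R} {q : R} (hb : ∀ l, b (l + 1) * (1 - q ^ (l + 1)) = 1) (a : R)
    (g : R⟦X⟧) : rescale q (TT F b a g) = TT F b a g - mm a * g := by
  ext l
  rw [coeff_rescale, map_sub, TT_coeff]
  cases l with
  | zero => simp [mm]
  | succ l => linear_combination -(coeff (l + 1) (mm a * g)) * hb l

/-- The action of the free algebra. -/
noncomputable def act {ι : Type*} (b : ℕ → R) (a : ι → R) :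
    FreeAlgebra F ι →ₐ[F] Module.End F R⟦X⟧ :=
  FreeAlgebra.lift F fun i => TT F b (a i)

lemma act_map {S : Type*} [CommRing S] [Algebra F S] (φ : R →ₐ[F] S) {ι : Type*} (b : ℕ → R)
    (a : ι → R) (f : FreeAlgebra F ι) (g : R⟦X⟧) :
    map (φ : R →+* S) (act F b a f g) =
      act F (fun l => φ (b l)) (fun i => φ (a i)) f (map (φ : R →+* S) g) := by
  induction f using FreeAlgebra.induction generalizing g with
  | grade0 r =>
    ext l
    simp [Module.algebraMap_end_apply]
  | grade1 i =>
    have e : mm (φ (a i)) = map (φ : R →+* S) (mm (a i)) := by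
      rw [mm, mm, map_mul, map_X]
      congr 1
      ext l
      simp
    ext l
    simp only [act, FreeAlgebra.lift_ι_apply, coeff_map, TT_coeff, e, ← map_mul]
    simp
  | mul f f' h h' => rw [map_mul, map_mul, Module.End.mul_apply, Module.End.mul_apply, h, h']
  | add f f' h h' => rw [map_add, map_add, LinearMap.add_apply, LinearMap.add_apply, map_add, h, h']

lemma rescale_smul' (q : R) (c : F) (g : R⟦X⟧) : rescale q (c • g) = c • rescale q g := by
  ext l
  simp

lemma clo_formula {n : ℕ} {b : ℕ → R} {q : R} (hb : ∀ l, b (l + 1) * (1 - q ^ (l + 1)) = 1)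
    (a : Fin n → R) (φ : Formula F n) : ∀ W : Finset R⟦X⟧, Clo F q a W →
      ∀ g ∈ span F (W : Set R⟦X⟧), ∃ W' : Finset R⟦X⟧, W ⊆ W' ∧ Clo F q a W' ∧
        W'.card ≤ W.card + φ.size ∧ act F b a φ.poly g ∈ span F (W' : Set R⟦X⟧) := by
  classical
  induction φ with
  | var i =>
    intro W hW g hg
    have sub : span F (W : Set R⟦X⟧) ≤ span F ((insert (TT F b (a i) g) W : Finset R⟦X⟧) : Set _) :=
      span_mono (by simp)
    refine ⟨insert (TT F b (a i) g) W, Finset.subset_insert _ _, ?_,
      Finset.card_insert_le _ _, subset_span (by simp [act, Formula.poly])⟩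
    intro h hh
    rw [Finset.coe_insert, mem_span_insert] at hh
    obtain ⟨c, z, hz, rfl⟩ := hh
    obtain ⟨g', hg', e⟩ := hW z hz
    refine ⟨g' + Pi.single i (c • g), fun j => add_mem (sub (hg' j)) ?_, ?_⟩
    · by_cases hj : j = i
      · subst hj
        simpa using smul_mem _ c (sub hg)
      · simp [hj]
    · simp only [Pi.add_apply, mul_add, Finset.sum_add_distrib]
      rw [map_add, e, rescale_smul', TT_spec F hb, Finset.sum_eq_single i (f := fun j =>
        mm (a j) * Pi.single (M := fun _ => R⟦X⟧) i (c • g) j)]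
      · simp only [Pi.single_eq_same, smul_sub, mul_smul_comm]
        abel
      · intro j _ hj
        simp [hj]
      · simp
  | const c =>
    intro W hW g hg
    refine ⟨W, subset_rfl, hW, by omega, ?_⟩
    simpa [Formula.poly, Module.algebraMap_end_apply] using smul_mem _ c hg
  | add φ ψ ih1 ih2 =>
    intro W hW g hg
    obtain ⟨W1, s1, c1, k1, m1⟩ := ih1 W hW g hg
    obtain ⟨W2, s2, c2, k2, m2⟩ := ih2 W1 c1 g (span_mono s1 hg)
    refine ⟨W2, s1.trans s2, c2, by simp only [Formula.size]; omega, ?_⟩
    rw [Formula.poly, map_add, LinearMap.add_apply]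
    exact add_mem (span_mono s2 m1) m2
  | mul φ ψ ih1 ih2 =>
    intro W hW g hg
    obtain ⟨W1, s1, c1, k1, m1⟩ := ih2 W hW g hg
    obtain ⟨W2, s2, c2, k2, m2⟩ := ih1 W1 c1 _ m1
    refine ⟨W2, s1.trans s2, c2, by simp only [Formula.size]; omega, ?_⟩
    rw [Formula.poly, map_mul, Module.End.mul_apply]
    exact m2

lemma clo_one {n : ℕ} (q : R) (a : Fin n → R) : Clo F q a {1} := by
  intro h hh
  rw [Finset.coe_singleton, mem_span_singleton] at hh
  obtain ⟨c, rfl⟩ := hh
  exact ⟨0, fun _ => zero_mem _, by simp [rescale_smul']⟩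

end

/-- Words. -/
noncomputable def word {ι : Type*} (w : List ι) : FreeAlgebra F ι :=
  (w.map (FreeAlgebra.ι F)).prod

lemma mem_span_word {ι : Type*} (f : FreeAlgebra F ι) :
    f ∈ span F (Set.range (word F (ι := ι))) := by
  induction f using FreeAlgebra.induction with
  | grade0 r =>
    rw [Algebra.algebraMap_eq_smul_one]
    exact smul_mem _ _ (subset_span ⟨[], rfl⟩)
  | grade1 i => exact subset_span ⟨[i], by simp [word]⟩
  | mul f f' h h' =>
    have := mul_mem_mul h h'
    rw [span_mul_span] at this
    refine span_mono ?_ this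
    rintro _ ⟨_, ⟨w, rfl⟩, _, ⟨w', rfl⟩, rfl⟩
    exact ⟨w ++ w', by simp [word]⟩
  | add f f' h h' => exact add_mem h h'

theorem act_ne_zero {k : Type*} [Field k] [Algebra F k] {ι : Type*} [Fintype ι] [DecidableEq ι]
    (a : ι → k) {q : k} (ha0 : ∀ i, a i ≠ 0) (hq : q ≠ 0)
    (hsep : ∀ i i' j, a i' * q ^ (j + 1) ≠ a i) (hinj : Function.Injective a)
    (h1 : ∀ j, q ^ (j + 1) ≠ 1) {b : ℕ → k} (hb : ∀ l, b (l + 1) * (1 - q ^ (l + 1)) = 1)
    {f : FreeAlgebra F ι} (hf : f ≠ 0) : act F b a f 1 ≠ 0 := by
  intro h0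
  obtain ⟨c, rfl⟩ := (Finsupp.mem_span_range_iff_exists_finsupp).1 (mem_span_word F f)
  let ψ : (List ι →₀ F) →+ (List ι →₀ Polynomial k) :=
    Finsupp.mapRange.addMonoidHom
      ((Polynomial.C : k →+* Polynomial k).comp (algebraMap F k)).toAddMonoidHom
  have e : ∀ c : List ι →₀ F, Lam (fun w => act F b a (word F w) 1) (ψ c) =
      act F b a (c.sum fun w x => x • word F w) 1 := by
    intro c
    induction c using Finsupp.induction_linear with
    | zero => simp
    | add c c' h h' =>
      rw [map_add, map_add, h, h', Finsupp.sum_add_index' (by simp) (by simp [add_smul]), map_add,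
        LinearMap.add_apply]
    | single w x =>
      have : ψ (Finsupp.single w x) = Finsupp.single w (Polynomial.C (algebraMap F k x)) := by
        simp [ψ]
      rw [this, Lam_single, Finsupp.sum_single_index (by simp), map_smul, LinearMap.smul_apply,
        Algebra.smul_def, PowerSeries.algebraMap_apply, Polynomial.coe_C]
  have z := indep a ha0 hq hsep hinj h1 (fun w => act F b a (word F w) 1) (by simp [word])
    (fun i w => by
      have : word F (i :: w) = FreeAlgebra.ι F i * word F w := by simp [word]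
      rw [this, map_mul, Module.End.mul_apply, act, FreeAlgebra.lift_ι_apply, TT_spec F hb])
    (c.support.sup List.length + 1) (ψ c) (fun w hw => by
      have : c w = 0 := by
        by_contra hc
        have := Finset.le_sup (f := List.length) (Finsupp.mem_support_iff.2 hc)
        omega
      simp [ψ, this]) (by rw [e, h0])
  apply hf
  have : c = 0 := by
    ext w
    have := DFunLike.congr_fun z w
    simpa [ψ] using this
  simp [this]

end Vale.Agent.P314
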