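import Mathlib

/-! Two lemmas on `q`-difference equations for polynomials. -/

namespace Vale.Agent.P314

open Polynomial

variable {k : Type*} [Field k]

/-- The substitution `z ↦ q z`. -/
noncomputable def sg (q : k) : k[X] →+* k[X] := compRingHom (C q * X)

lemma sg_eval (q z : k) (p : k[X]) : (sg q p).eval z = p.eval (q * z) := by
  simp [sg, eval_comp]

lemma sg_coeff (q : k) (p : k[X]) (n : ℕ) : (sg q p).coeff n = p.coeff n * q ^ n := by
  simp [sg, comp_C_mul_X_coeff]

lemma sg_C (q c : k) : sg q (C c) = C c := by simp [sg]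

lemma sg_natDegree {q : k} (hq : q ≠ 0) (p : k[X]) : (sg q p).natDegree = p.natDegree := by
  apply natDegree_eq_of_degree_eq
  unfold degree
  congr 1
  ext n
  simp [sg_coeff, hq]

lemma sg_lead {q : k} (hq : q ≠ 0) (p : k[X]) :
    (sg q p).leadingCoeff = p.leadingCoeff * q ^ p.natDegree := by
  rw [leadingCoeff, sg_natDegree hq, sg_coeff, leadingCoeff]

lemma sg_ne_zero {q : k} (hq : q ≠ 0) {p : k[X]} (hp : p ≠ 0) : sg q p ≠ 0 := by
  rw [← leadingCoeff_ne_zero, sg_lead hq]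
  exact mul_ne_zero (leadingCoeff_ne_zero.2 hp) (pow_ne_zero _ hq)

lemma pow_inj {q : k} (hq : q ≠ 0) (h1 : ∀ j, q ^ (j + 1) ≠ 1) :
    Function.Injective fun j : ℕ => q ^ j := by
  have key : ∀ i j : ℕ, i < j → q ^ i ≠ q ^ j := by
    intro i j hij e
    obtain ⟨t, rfl⟩ := Nat.exists_eq_add_of_lt hij
    apply h1 t
    have : q ^ i * q ^ (t + 1) = q ^ i * 1 := by rw [← pow_add, ← add_assoc, ← e, mul_one]
    exact mul_left_cancel₀ (pow_ne_zero _ hq) this
  intro i j e
  rcases lt_trichotomy i j with h | h | h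
  · exact absurd e (key i j h)
  · exact h
  · exact absurd e.symm (key j i h)

lemma deg_eq {q : k} (hq : q ≠ 0) (h1 : ∀ j, q ^ (j + 1) ≠ 1) {r0 r : k[X]} (h0 : r0 ≠ 0)
    (hr : r ≠ 0) (h : sg q r0 * r = r0 * sg q r) : r.natDegree = r0.natDegree := by
  have := congrArg leadingCoeff h
  rw [leadingCoeff_mul, leadingCoeff_mul, sg_lead hq, sg_lead hq] at this
  have a0 := leadingCoeff_ne_zero.2 h0
  have a1 := leadingCoeff_ne_zero.2 hr
  apply pow_inj hq h1
  have e : r0.leadingCoeff * r.leadingCoeff * q ^ r.natDegree =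
      r0.leadingCoeff * r.leadingCoeff * q ^ r0.natDegree := by linear_combination -this
  exact mul_left_cancel₀ (mul_ne_zero a0 a1) e

lemma lemA {q : k} (hq : q ≠ 0) (h1 : ∀ j, q ^ (j + 1) ≠ 1) {r0 r : k[X]} (h0 : r0 ≠ 0)
    (h : sg q r0 * r = r0 * sg q r) : ∃ c, r = C c * r0 := by
  by_cases hr : r = 0
  · exact ⟨0, by simp [hr]⟩
  have hd := deg_eq hq h1 h0 hr h
  have a0 := leadingCoeff_ne_zero.2 h0
  refine ⟨r.leadingCoeff / r0.leadingCoeff, ?_⟩
  by_contra hne
  have hne' : r - C (r.leadingCoeff / r0.leadingCoeff) * r0 ≠ 0 := sub_ne_zero.2 hne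
  have hd' := deg_eq hq h1 h0 hne' (by
    rw [map_sub, map_mul, sg_C]
    linear_combination h)
  apply leadingCoeff_ne_zero.2 hne'
  rw [leadingCoeff, hd', coeff_sub, coeff_C_mul]
  have : r.coeff r0.natDegree = r.leadingCoeff := by rw [← hd]; rfl
  rw [this, coeff_natDegree]
  field_simp
  ring

lemma no_chain {t z : k} (ht : t ≠ 0) (h1 : ∀ j, t ^ (j + 1) ≠ 1) (hz : z ≠ 0) {p : k[X]}
    (hp : p ≠ 0) (h0 : p.eval z = 0)
    (hs : ∀ j : ℕ, p.eval (z * t ^ j) = 0 → p.eval (z * t ^ (j + 1)) = 0) : False := by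
  apply hp
  apply eq_zero_of_infinite_isRoot
  refine Set.infinite_of_injective_forall_mem (f := fun j : ℕ => z * t ^ j)
    (fun i j e => pow_inj ht h1 (mul_left_cancel₀ hz e)) ?_
  intro j
  induction j with
  | zero => simpa using h0
  | succ j ih => exact hs j ih

variable {ι : Type*} [Fintype ι] [DecidableEq ι]

/-- The common denominator. -/
noncomputable def PP (a : ι → k) : k[X] := ∏ i, (1 - C (a i) * X)

/-- The cofactors. -/
noncomputable def PQ (a : ι → k) (i : ι) : k[X] := ∏ j ∈ Finset.univ.erase i, (1 - C (a j) * X)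

omit [DecidableEq ι] in
lemma PP_eval_ne (a : ι → k) {z : k} (h : ∀ i, a i * z ≠ 1) : (PP a).eval z ≠ 0 := by
  rw [PP, eval_prod]
  refine Finset.prod_ne_zero_iff.2 fun i _ => ?_
  simpa [sub_eq_zero] using (h i).symm

omit [DecidableEq ι] in
lemma PP_ne (a : ι → k) : PP a ≠ 0 := fun h => by
  have := PP_eval_ne a (z := 0) (by simp)
  simp [h] at this

lemma PP_eq (a : ι → k) (i : ι) : PP a = (1 - C (a i) * X) * PQ a i := by
  rw [PP, PQ, Finset.mul_prod_erase _ (fun j => 1 - C (a j) * X) (Finset.mem_univ i)]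

lemma lemB (a : ι → k) {q : k} (ha0 : ∀ i, a i ≠ 0) (hq : q ≠ 0)
    (hsep : ∀ i i' j, a i' * q ^ (j + 1) ≠ a i) (hinj : Function.Injective a) {r0 r : k[X]}
    (c : ι → k) (h0 : r0 ≠ 0)
    (h : PP a * (sg q r0 * r - r0 * sg q r) + r0 * sg q r0 * ∑ i, C (c i) * (X * PQ a i) = 0)
    (i : ι) : c i = 0 := by
  have h1 : ∀ j, q ^ (j + 1) ≠ 1 := fun j e => hsep i i j (by rw [e, mul_one])
  obtain ⟨r', s, g, hco, rfl, rfl⟩ := UniqueFactorizationMonoid.exists_reduced_factors' r r0 h0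
  have hg : g ≠ 0 := left_ne_zero_of_mul h0
  have hs : s ≠ 0 := right_ne_zero_of_mul h0
  have h' : PP a * (sg q s * r' - s * sg q r') + s * sg q s * ∑ i, C (c i) * (X * PQ a i) = 0 := by
    apply mul_left_cancel₀ (mul_ne_zero hg (sg_ne_zero hq hg))
    rw [map_mul, map_mul] at h
    linear_combination h
  obtain ⟨u, v, huv⟩ := hco.isCoprime
  have cop : ∀ z, s.eval z = 0 → r'.eval z ≠ 0 := by
    intro z e1 e2
    have := congrArg (eval z) huv
    simp [e1, e2] at this
  have ev : ∀ z, (PP a).eval z * (s.eval (q * z) * r'.eval z - s.eval z * r'.eval (q * z)) +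
      s.eval z * s.eval (q * z) * (∑ i, C (c i) * (X * PQ a i)).eval z = 0 := by
    intro z
    have := congrArg (eval z) h'
    simpa only [eval_add, eval_mul, eval_sub, sg_eval, eval_zero] using this
  by_contra hc
  have hz : (a i)⁻¹ ≠ 0 := inv_ne_zero (ha0 i)
  have e0 : (PP a).eval (a i)⁻¹ = 0 := by
    rw [PP_eq a i]
    simp [ha0 i]
  have e1 : (∑ i, C (c i) * (X * PQ a i)).eval (a i)⁻¹ ≠ 0 := by
    rw [eval_finset_sum, Finset.sum_eq_single i]
    · simp only [eval_mul, eval_C, eval_X]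
      refine mul_ne_zero hc (mul_ne_zero hz ?_)
      rw [PQ, eval_prod]
      refine Finset.prod_ne_zero_iff.2 fun j hj => ?_
      simp only [eval_sub, eval_one, eval_mul, eval_C, eval_X, ne_eq, sub_eq_zero]
      intro e
      apply (Finset.mem_erase.1 hj).1
      apply hinj
      have := ha0 i
      field_simp at e
      exact e.symm
    · intro j _ hj
      simp only [eval_mul, PQ, eval_prod]
      rw [Finset.prod_eq_zero (i := i) (Finset.mem_erase.2 ⟨hj.symm, Finset.mem_univ _⟩)]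
      · simp
      · simp [ha0 i]
    · simp
  have e2 := ev (a i)⁻¹
  rw [e0, zero_mul, zero_add] at e2
  rcases mul_eq_zero.1 ((mul_eq_zero.1 e2).resolve_right e1) with e3 | e3
  · refine no_chain (t := q⁻¹) (inv_ne_zero hq) (fun j e => h1 j ?_) hz hs e3 ?_
    · rw [inv_pow] at e
      exact inv_eq_one.1 e
    · intro j ej
      have e4 := ev ((a i)⁻¹ * q⁻¹ ^ (j + 1))
      have e5 : q * ((a i)⁻¹ * q⁻¹ ^ (j + 1)) = (a i)⁻¹ * q⁻¹ ^ j := by
        rw [pow_succ]
        field_simp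
      rw [e5, ej] at e4
      have e6 := PP_eval_ne a (z := (a i)⁻¹ * q⁻¹ ^ (j + 1)) (fun i' e => hsep i' i j (by
        have := ha0 i
        rw [inv_pow] at e
        field_simp at e
        exact e.symm))
      have e7 := cop _ ej
      have : (PP a).eval ((a i)⁻¹ * q⁻¹ ^ (j + 1)) * r'.eval ((a i)⁻¹ * q⁻¹ ^ j) *
          s.eval ((a i)⁻¹ * q⁻¹ ^ (j + 1)) = 0 := by linear_combination -e4
      exact (mul_eq_zero.1 this).resolve_left (mul_ne_zero e6 e7)
  · refine no_chain (t := q) hq h1 (mul_ne_zero hq hz) hs e3 ?_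
    intro j ej
    have e4 := ev (q * (a i)⁻¹ * q ^ j)
    rw [ej] at e4
    have e6 := PP_eval_ne a (z := q * (a i)⁻¹ * q ^ j) (fun i' e => hsep i i' j (by
      have := ha0 i
      field_simp at e
      rw [← e, pow_succ]
      ring))
    have e7 := cop _ ej
    have : (PP a).eval (q * (a i)⁻¹ * q ^ j) * r'.eval (q * (a i)⁻¹ * q ^ j) *
        s.eval (q * (q * (a i)⁻¹ * q ^ j)) = 0 := by linear_combination e4
    have e8 := (mul_eq_zero.1 this).resolve_left (mul_ne_zero e6 e7)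
    rw [← e8]
    congr 1
    ring

end Vale.Agent.P314
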