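import Vale.Agent.P314.Defs
import Vale.Agent.Lib.helper4.Arith

/-! The explicit tuple and its computation. -/

namespace Vale.Agent.P314

open Vale.Agent.Lib.H4TM List

universe u

/-- Truncation order in `z`. -/
def dD (n s : ℕ) : ℕ := (n + 1) * ((s + 1) * ((s + 1) * (s + 1))) + 1

/-- Truncation order in `u`. -/
def dM (n s : ℕ) : ℕ := s * (n * dD n s + (n + 1) * (dD n s * dD n s)) + 1

/-- The test number: zero exactly at the nonzero entries. -/
def test (n M i r c : ℕ) : ℕ :=
  (c / M + 1 - r / M) + (c % M + i * (r / M - c / M - 1) - r % M) +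
    (r % M - (c % M + i * (r / M - c / M - 1))) % ((n + 1) * (r / M))

/-- The explicit tuple of zero-one matrices. -/
def tup (F : Type u) [Field F] (n s : ℕ) : Tuple F n :=
  ⟨dD n s * dM n s, fun i => Matrix.of fun r c => if test n (dM n s) i r c = 0 then 1 else 0⟩

lemma flatMap_finRange (k : ℕ) (g : ℕ → List Bool) :
    ((finRange k).flatMap fun i : Fin k => g i.val) = (range k).flatMap g := by
  rw [← map_coe_finRange_eq_range, flatMap_map]

lemma ncomp_dD : NComp fun env => dD (env 0) (env 1) := by
  unfold dD
  have h := (NComp.var 1).add (NComp.const 1)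
  exact (((NComp.var 0).add (NComp.const 1)).mul (h.mul (h.mul h))).add (NComp.const 1)

lemma ncomp_dM : NComp fun env => dM (env 0) (env 1) := by
  unfold dM
  exact ((NComp.var 1).mul (((NComp.var 0).mul ncomp_dD).add
    (((NComp.var 0).add (NComp.const 1)).mul (ncomp_dD.mul ncomp_dD)))).add (NComp.const 1)

lemma ncomp_test {n M i r c : (ℕ → ℕ) → ℕ} (hn : NComp n) (hM : NComp M) (hi : NComp i)
    (hr : NComp r) (hc : NComp c) :
    NComp fun env => test (n env) (M env) (i env) (r env) (c env) := by
  unfold test
  have h1 := (hc.mod hM).add (hi.mul (((hr.div hM).sub (hc.div hM)).sub (NComp.const 1)))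
  exact ((((hc.div hM).add (NComp.const 1)).sub (hr.div hM)).add (h1.sub (hr.mod hM))).add
    (((hr.mod hM).sub h1).mod ((hn.add (NComp.const 1)).mul (hr.div hM)))

theorem comp_tup (F : Type u) [Field F] (code : F → List Bool) :
    Comp fun env => encodeSet code [tup F (env 0) (env 1)] := by
  have hd : NComp fun env => dD (env 0) (env 1) * dM (env 0) (env 1) := ncomp_dD.mul ncomp_dM
  have h := (Comp.const [true, false]).app ((Comp.app hd (Comp.const [false])).app
    (Comp.loop (fun i env => (range (dD (env 0) (env 1) * dM (env 0) (env 1))).flatMap fun r =>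
        (range (dD (env 0) (env 1) * dM (env 0) (env 1))).flatMap fun c =>
          if test (env 0) (dM (env 0) (env 1)) i r c = 0 then delimit (code 1)
          else delimit (code 0)) (NComp.var 0)
      (Comp.loop (fun r env => (range (dD (env 1) (env 2) * dM (env 1) (env 2))).flatMap fun c =>
          if test (env 1) (dM (env 1) (env 2)) (env 0) r c = 0 then delimit (code 1)
          else delimit (code 0)) hd.tail
        (Comp.loop (fun c env =>
          if test (env 2) (dM (env 2) (env 3)) (env 1) (env 0) c = 0 then delimit (code 1)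
          else delimit (code 0)) hd.tail.tail
          (Comp.ite (ncomp_test (NComp.var 3) ncomp_dM.tail.tail.tail (NComp.var 2) (NComp.var 1)
            (NComp.var 0)) (Comp.const _) (Comp.const _))))))
  refine h.of_eq fun env => ?_
  simp only [encodeSet, encodeTuple, tup, Matrix.of_apply, flatMap_cons, flatMap_nil, append_nil,
    length_singleton, replicate_one, apply_ite code, apply_ite delimit]
  rw [← flatMap_finRange]
  simp only [← flatMap_finRange (dD (env 0) (env 1) * dM (env 0) (env 1))]
  simp

theorem tm_tup (F : Type u) [Field F] (code : F → List Bool) :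
    ∃ M : Turing.TM2ComputableInPolyTime encodeInput id
      (fun p : ℕ × ℕ => encodeSet code [tup F p.1 p.2]), ∀ k, Finite (M.tm.Γ k) :=
  Comp.tm2 (f := fun n s => encodeSet code [tup F n s]) (comp_tup F code)

end Vale.Agent.P314
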