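import Vale.Agent.P314.Ops
import Vale.Agent.P314.Prog

/-! Degree bounds in `u` and truncation to a finite matrix tuple. -/

namespace Vale.Agent.P314

open PowerSeries Submodule

universe u

variable (F : Type u) [Field F]

/-- The series `1 / (1 - u ^ c)`. -/
noncomputable def geo (c : ℕ) : F⟦X⟧ := PowerSeries.mk fun j => if c ∣ j then 1 else 0

lemma geo_spec {c : ℕ} (hc : 0 < c) : geo F c * (1 - X ^ c) = 1 := by
  ext j
  rw [mul_sub, mul_one, map_sub, coeff_mul_X_pow', coeff_one]
  simp only [geo, coeff_mk]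
  by_cases h : c ≤ j
  · have : j ≠ 0 := by omega
    simp [h, this, Nat.dvd_sub_iff_left h dvd_rfl]
  · by_cases h0 : j = 0
    · simp [h0, hc.ne']
    · have : ¬ c ∣ j := fun e => h (Nat.le_of_dvd (by omega) e)
      simp [h, h0, this]

/-- The inverses of `1 - q ^ l`. -/
noncomputable def bb (n l : ℕ) : F⟦X⟧ := geo F ((n + 1) * l)

lemma bb_spec (n l : ℕ) : bb F n (l + 1) * (1 - (X ^ (n + 1)) ^ (l + 1)) = 1 := by
  rw [← pow_mul]
  exact geo_spec F (by positivity)

/-- The parameters `a_i = u ^ i`. -/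
noncomputable def aa (n : ℕ) (i : Fin n) : F⟦X⟧ := X ^ i.val

theorem series_ne_zero {n : ℕ} {f : FreeAlgebra F (Fin n)} (hf : f ≠ 0) :
    act F (bb F n) (aa F n) f 1 ≠ 0 := by
  intro h0
  let φ := IsScalarTower.toAlgHom F F⟦X⟧ (FractionRing F⟦X⟧)
  have hφ : Function.Injective φ := IsFractionRing.injective F⟦X⟧ (FractionRing F⟦X⟧)
  have e := act_map F φ (bb F n) (aa F n) f 1
  rw [h0, map_zero, map_one] at e
  have u0 : φ X ≠ 0 := fun h => X_ne_zero (hφ (h.trans (map_zero φ).symm))
  have u1 : ∀ j, φ X ^ (j + 1) ≠ 1 := fun j h => by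
    rw [← map_pow, ← map_one φ] at h
    have := congrArg constantCoeff (hφ h)
    simp at this
  have inj := pow_inj u0 u1
  refine act_ne_zero F (fun i => φ (aa F n i)) (q := φ X ^ (n + 1)) ?_ (pow_ne_zero _ u0) ?_ ?_ ?_
    (b := fun l => φ (bb F n l)) ?_ hf e.symm
  · intro i
    rw [aa, map_pow]
    exact pow_ne_zero _ u0
  · intro i i' j h
    simp only [aa, map_pow, ← pow_mul, ← pow_add] at h
    have := inj h
    have := i.2
    nlinarith
  · intro i i' h
    simp only [aa, map_pow] at h
    exact Fin.ext (inj h)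
  · intro j h
    rw [← pow_mul, ← pow_zero (φ X)] at h
    have := inj h
    simp at this
  · intro l
    have := congrArg φ (bb_spec F n l)
    simpa using this

lemma indep_X : LinearIndependent F fun j : ℕ => (X : F⟦X⟧) ^ j := by
  rw [linearIndependent_iff']
  intro s g hg i hi
  have := congrArg (coeff i) hg
  simpa [coeff_X_pow, hi] using this

/-- Series that are polynomials of degree at most `m`. -/
def Pol (m : ℕ) : Submodule F F⟦X⟧ where
  carrier := {g | ∀ j, m < j → coeff j g = 0}
  add_mem' := fun {g h} hg hh j hj => by simp [hg j hj, hh j hj]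
  zero_mem' := fun j _ => by simp
  smul_mem' := fun c g hg j hj => by simp [hg j hj]

variable {F}

lemma Pol_mono {m m' : ℕ} (h : m ≤ m') {g : F⟦X⟧} (hg : g ∈ Pol F m) : g ∈ Pol F m' :=
  fun j hj => hg j (by omega)

lemma Pol_mul {m m' : ℕ} {g h : F⟦X⟧} (hg : g ∈ Pol F m) (hh : h ∈ Pol F m') :
    g * h ∈ Pol F (m + m') := by
  intro j hj
  rw [coeff_mul]
  refine Finset.sum_eq_zero ?_
  rintro ⟨x, y⟩ hxy
  have e : x + y = j := by simpa using hxy
  by_cases hx : m < x
  · simp [hg x hx]
  · simp [hh y (by omega)]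

lemma Pol_pow (t : ℕ) : (X : F⟦X⟧) ^ t ∈ Pol F t := fun j hj => by
  simp [coeff_X_pow, hj.ne']

lemma Pol_one : (1 : F⟦X⟧) ∈ Pol F 0 := by simpa using Pol_pow (F := F) 0

lemma Pol_prod {ι : Type*} (s : Finset ι) (c : ι → F⟦X⟧) (e : ℕ) (h : ∀ i ∈ s, c i ∈ Pol F e) :
    ∏ i ∈ s, c i ∈ Pol F (s.card * e) := by
  classical
  induction s using Finset.induction_on with
  | empty => simpa using Pol_one
  | insert i s hi ih =>
    rw [Finset.prod_insert hi, Finset.card_insert_of_notMem hi, add_mul, one_mul, add_comm]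
    exact Pol_mul (h i (by simp)) (ih fun j hj => h j (by simp [hj]))

variable (F) in
/-- The common denominator in `u`. -/
noncomputable def lam (n D : ℕ) : F⟦X⟧ := ∏ l ∈ Finset.range D, (1 - (X ^ (n + 1)) ^ (l + 1))

lemma fac_Pol (n D : ℕ) {l : ℕ} (hl : l < D) :
    (1 - (X ^ (n + 1)) ^ (l + 1) : F⟦X⟧) ∈ Pol F ((n + 1) * D) := by
  rw [← pow_mul]
  exact sub_mem (Pol_mono (Nat.zero_le _) Pol_one)
    (Pol_mono (Nat.mul_le_mul_left _ hl) (Pol_pow _))

lemma lam_Pol (n D : ℕ) : lam F n D ∈ Pol F ((n + 1) * (D * D)) :=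
  Pol_mono (by simp only [Finset.card_range]; exact le_of_eq (by ring))
    (Pol_prod (Finset.range D) _ _ fun l hl => fac_Pol n D (Finset.mem_range.1 hl))

lemma lam_bb (n D : ℕ) {l : ℕ} (hl : l < D) :
    lam F n D * bb F n (l + 1) ∈ Pol F ((n + 1) * (D * D)) := by
  rw [lam, ← Finset.mul_prod_erase _ _ (Finset.mem_range.2 hl), mul_right_comm,
    mul_comm _ (bb F n (l + 1)), bb_spec, one_mul]
  refine Pol_mono ?_ (Pol_prod _ _ _ fun l hl => fac_Pol n D
    (Finset.mem_range.1 (Finset.mem_of_mem_erase hl)))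
  have := Finset.card_erase_le (s := Finset.range D) (a := l)
  rw [Finset.card_range] at this
  nlinarith [Nat.mul_le_mul_right ((n + 1) * D) this]

lemma lam_ne (n D : ℕ) : lam F n D ≠ 0 := fun h => by
  have := congrArg constantCoeff h
  simp [lam, map_prod] at this

lemma mm_coeff {R : Type*} [CommRing R] (a : R) (g : R⟦X⟧) (l : ℕ) :
    coeff (l + 1) (mm a * g) = ∑ l' ∈ Finset.range (l + 1), coeff l' g * a ^ (l - l') := by
  rw [mm, mul_assoc, coeff_succ_X_mul, mul_comm, coeff_mul,
    Finset.Nat.sum_antidiagonal_eq_sum_range_succ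
      (fun x y => coeff x g * coeff y (rescale a (PowerSeries.mk 1)))]
  simp

variable (F) in
/-- The filtration by the number of operators applied. -/
def GG (n D j : ℕ) : Submodule F F⟦X⟧⟦X⟧ where
  carrier := {g | ∀ l < D, lam F n D ^ j * coeff l g ∈ Pol F (j * (n * D + (n + 1) * (D * D)))}
  add_mem' := fun {g h} hg hh l hl => by
    rw [map_add, mul_add (lam F n D ^ j)]
    exact add_mem (hg l hl) (hh l hl)
  zero_mem' := fun l _ => by simp
  smul_mem' := fun c g hg l hl => by
    have := smul_mem _ c (hg l hl)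
    simpa using this

lemma GG_mono (n D : ℕ) {j j' : ℕ} (h : j ≤ j') : GG F n D j ≤ GG F n D j' := by
  induction h with
  | refl => exact le_rfl
  | step _ ih =>
    intro g hg l hl
    have := Pol_mul (lam_Pol n D) (ih hg l hl)
    rw [pow_succ', mul_assoc]
    refine Pol_mono ?_ this
    rw [Nat.succ_mul _ (n * D + _)]
    omega

lemma GG_one (n D : ℕ) : (1 : F⟦X⟧⟦X⟧) ∈ GG F n D 0 := by
  intro l _
  rw [coeff_one]
  split_ifs
  · simpa using Pol_one
  · simp

lemma GG_TT (n D : ℕ) (i : Fin n) {j : ℕ} {g : F⟦X⟧⟦X⟧} (hg : g ∈ GG F n D j) :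
    TT F (bb F n) (aa F n i) g ∈ GG F n D (j + 1) := by
  intro l hl
  rw [TT_coeff]
  cases l with
  | zero => simp [mm]
  | succ l =>
    rw [mm_coeff, Finset.mul_sum, Finset.mul_sum]
    refine sum_mem fun l' hl' => ?_
    have h1 := Pol_mul (Pol_mul (lam_bb n D (by omega : l < D))
      (hg l' (by have := Finset.mem_range.1 hl'; omega))) (Pol_pow (F := F) (i.val * (l - l')))
    have e : lam F n D ^ (j + 1) * (bb F n (l + 1) * (coeff l' g * aa F n i ^ (l - l'))) =
        lam F n D * bb F n (l + 1) * (lam F n D ^ j * coeff l' g) * X ^ (i.val * (l - l')) := by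
      rw [aa, ← pow_mul]
      ring
    rw [e]
    refine Pol_mono ?_ h1
    have : i.val * (l - l') ≤ n * D := Nat.mul_le_mul i.2.le (by omega)
    rw [Nat.succ_mul j]
    omega

lemma GG_formula (n D : ℕ) (φ : Formula F n) : ∀ j, ∀ g ∈ GG F n D j,
    act F (bb F n) (aa F n) φ.poly g ∈ GG F n D (j + φ.size) := by
  induction φ with
  | var i =>
    intro j g hg
    simpa [act, Formula.poly, Formula.size] using GG_TT n D i hg
  | const c =>
    intro j g hg
    simpa [Formula.poly, Module.algebraMap_end_apply] using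
      GG_mono n D (Nat.le_add_right _ _) (smul_mem _ c hg)
  | add φ ψ ih1 ih2 =>
    intro j g hg
    rw [Formula.poly, map_add, LinearMap.add_apply]
    exact add_mem (GG_mono n D (by simp only [Formula.size]; omega) (ih1 j g hg))
      (GG_mono n D (by simp only [Formula.size]; omega) (ih2 j g hg))
  | mul φ ψ ih1 ih2 =>
    intro j g hg
    rw [Formula.poly, map_mul, Module.End.mul_apply]
    exact GG_mono n D (by simp only [Formula.size]; omega) (ih1 _ _ (ih2 j g hg))

theorem small_coeff {n s : ℕ} (φ : Formula F n) (hs : φ.size ≤ s) (h0 : φ.poly ≠ 0) :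
    ∃ l < dD n s, ∃ α < dM n s, coeff α (coeff l (act F (bb F n) (aa F n) φ.poly 1)) ≠ 0 := by
  obtain ⟨W, -, c, k, m⟩ := clo_formula F (bb_spec F n) (aa F n) φ {1} (clo_one F _ _) 1
    (subset_span (by simp))
  obtain ⟨l, hl, hne⟩ := zero_est (X : F⟦X⟧) (indep_X F) W c (s + 1)
    (by rw [Finset.card_singleton] at k; omega) m (series_ne_zero F h0)
  refine ⟨l, hl, ?_⟩
  have p := GG_mono n (dD n s) (show 0 + φ.size ≤ s by omega)
    (GG_formula n (dD n s) φ 0 1 (GG_one n _)) l hl
  by_contra hc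
  push Not at hc
  apply mul_ne_zero (pow_ne_zero s (lam_ne n (dD n s))) hne
  ext j
  by_cases hj : j < dM n s
  · rw [coeff_mul, map_zero]
    refine Finset.sum_eq_zero ?_
    rintro ⟨x, y⟩ hxy
    have e : x + y = j := by simpa using hxy
    simp [hc y (by omega)]
  · rw [map_zero]
    exact p j (by unfold dM at hj; omega)

lemma sum_fin_mul {A : Type*} [AddCommMonoid A] (D M : ℕ) (f : ℕ → ℕ → A) :
    ∑ c : Fin (D * M), f (c / M) (c % M) = ∑ l ∈ Finset.range D, ∑ α ∈ Finset.range M, f l α := by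
  rw [← finProdFinEquiv.sum_comp, Fintype.sum_prod_type, ← Fin.sum_univ_eq_sum_range
    (fun l => ∑ α ∈ Finset.range M, f l α)]
  refine Finset.sum_congr rfl fun l _ => ?_
  rw [← Fin.sum_univ_eq_sum_range (fun α => f l α)]
  refine Finset.sum_congr rfl fun α _ => ?_
  have pos : 0 < M := by have := α.2; omega
  simp [finProdFinEquiv, Nat.add_mul_div_left _ _ pos, Nat.div_eq_of_lt α.2,
    Nat.mod_eq_of_lt α.2]

variable (F) in
/-- Truncation of a double series. -/
noncomputable def rho (D M : ℕ) : F⟦X⟧⟦X⟧ →ₗ[F] (Fin (D * M) → F) where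
  toFun g := fun r => coeff (r % M) (coeff (r / M) g)
  map_add' g h := by funext r; simp
  map_smul' c g := by funext r; simp

lemma rho_TT (n D M : ℕ) (i : Fin n) (g : F⟦X⟧⟦X⟧) :
    rho F D M (TT F (bb F n) (aa F n i) g) =
      (Matrix.of fun r c : Fin (D * M) => if test n M i r c = 0 then (1 : F) else 0).mulVec
        (rho F D M g) := by
  funext r
  have pos : 0 < M := Nat.pos_of_mul_pos_left (lt_of_le_of_lt (Nat.zero_le _) r.2)
  have hl : r.val / M < D := (Nat.div_lt_iff_lt_mul pos).2 r.2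
  have hα : r.val % M < M := Nat.mod_lt _ pos
  refine Eq.trans ?_ (sum_fin_mul D M (fun l' α' => (if (l' + 1 - r / M) +
    (α' + i * (r / M - l' - 1) - r % M) +
    (r % M - (α' + i * (r / M - l' - 1))) % ((n + 1) * (r / M)) = 0 then (1 : F) else 0) *
      coeff α' (coeff l' g))).symm
  simp only [rho, LinearMap.coe_mk, AddHom.coe_mk, TT_coeff]
  generalize r.val / M = l at hl ⊢
  generalize r.val % M = α at hα ⊢
  cases l with
  | zero => simp [mm]
  | succ l =>
    rw [mm_coeff, Finset.mul_sum, map_sum]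
    symm
    rw [← Finset.sum_subset (Finset.range_subset_range.2 hl.le)]
    · refine Finset.sum_congr rfl fun l' hl' => ?_
      have hl'' := Finset.mem_range.1 hl'
      rw [mul_left_comm, coeff_mul, Finset.Nat.sum_antidiagonal_eq_sum_range_succ
        (fun x y => coeff x (coeff l' g) * coeff y (bb F n (l + 1) * aa F n i ^ (l - l'))),
        ← Finset.sum_subset (Finset.range_subset_range.2 (Nat.succ_le_of_lt hα))]
      · refine Finset.sum_congr rfl fun α' hα' => ?_
        have hα'' := Finset.mem_range.1 hα'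
        rw [mul_comm, aa, ← pow_mul, coeff_mul_X_pow', bb, geo, coeff_mk]
        congr 1
        have e1 : l + 1 - l' - 1 = l - l' := by omega
        rw [e1, Nat.sub_sub]
        simp only [Nat.dvd_iff_mod_eq_zero]
        generalize i.val * (l - l') = t
        generalize (α - (α' + t)) % ((n + 1) * (l + 1)) = x
        by_cases h1 : t ≤ α - α'
        · by_cases h2 : x = 0
          · rw [if_pos h1, if_pos h2, if_pos (by omega)]
          · rw [if_pos h1, if_neg h2, if_neg (by omega)]
        · rw [if_neg h1, if_neg (by omega)]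
      · intro α' _ h
        rw [Finset.mem_range] at h
        rw [if_neg (by omega), zero_mul]
    · intro l' _ h
      rw [Finset.mem_range] at h
      refine Finset.sum_eq_zero fun α' _ => ?_
      rw [if_neg (by omega), zero_mul]

lemma rho_act (n D M : ℕ) (f : FreeAlgebra F (Fin n)) (g : F⟦X⟧⟦X⟧) :
    rho F D M (act F (bb F n) (aa F n) f g) =
      (FreeAlgebra.lift F (fun i : Fin n => (Matrix.of fun r c : Fin (D * M) =>
        if test n M i r c = 0 then (1 : F) else 0)) f).mulVec (rho F D M g) := by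
  induction f using FreeAlgebra.induction generalizing g with
  | grade0 r =>
    simp [Module.algebraMap_end_apply, Algebra.algebraMap_eq_smul_one, Matrix.smul_mulVec]
  | grade1 i => simpa [act] using rho_TT n D M i g
  | mul f f' h h' => rw [map_mul, map_mul, Module.End.mul_apply, h, h', Matrix.mulVec_mulVec]
  | add f f' h h' => rw [map_add, map_add, LinearMap.add_apply, map_add, h, h', Matrix.add_mulVec]

theorem hit {n s : ℕ} (φ : Formula F n) (hs : φ.size ≤ s) (h0 : φ.poly ≠ 0) :
    FreeAlgebra.lift F (tup F n s).2 φ.poly ≠ 0 := by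
  intro hz
  obtain ⟨l, hl, α, hα, hne⟩ := small_coeff φ hs h0
  have e := rho_act n (dD n s) (dM n s) φ.poly 1
  have hz' : FreeAlgebra.lift F (fun i : Fin n => (Matrix.of fun r c : Fin (dD n s * dM n s) =>
        if test n (dM n s) i r c = 0 then (1 : F) else 0)) φ.poly = 0 := hz
  rw [hz', Matrix.zero_mulVec] at e
  have pos : 0 < dM n s := by omega
  have := congrFun e ⟨α + dM n s * l, by nlinarith⟩
  apply hne
  simpa [rho, Nat.add_mul_div_left _ _ pos, Nat.div_eq_of_lt hα, Nat.mod_eq_of_lt hα] using this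

end Vale.Agent.P314
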