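import Vale.Agent.P314.Indep

/-! A zero estimate for solutions of triangular `q`-difference systems. -/

namespace Vale.Agent.P314

open PowerSeries Submodule

variable {F : Type*} [Field F] {R : Type*} [CommRing R] [Algebra F R]

lemma A_smul (c : F⟦X⟧) (y : R⟦X⟧) : c • y = map (algebraMap F R) c * y := rfl

lemma indep_of_const {τ : Type*} [Fintype τ] (H : τ → R⟦X⟧)
    (h : LinearIndependent F fun t => constantCoeff (H t)) : LinearIndependent F⟦X⟧ H := by
  rw [Fintype.linearIndependent_iff] at h ⊢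
  intro c hc
  have key : ∀ l : ℕ, ∀ t, coeff l (c t) = 0 := by
    intro l
    induction l using Nat.strong_induction_on with
    | _ l ih =>
      apply h
      have := congrArg (coeff l) hc
      rw [map_sum, map_zero] at this
      rw [← this]
      refine Finset.sum_congr rfl fun t _ => ?_
      rw [A_smul, coeff_mul, Finset.sum_eq_single (l, 0)]
      · simp [Algebra.smul_def]
      · rintro ⟨x, y⟩ hxy hne
        have e : x + y = l := by simpa using hxy
        have : x < l := by
          by_contra hx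
          apply hne
          have : x = l := by omega
          have : y = 0 := by omega
          simp [*]
        simp [ih x this t]
      · simp
  intro t
  ext l
  simp [key l t]

lemma rescale_C' (c a : R) : rescale c (C a) = C a := by
  ext n
  rw [coeff_rescale, coeff_C]
  split_ifs with h <;> simp [h]

variable (F) in
/-- The filtration by degree in `u`. -/
noncomputable def YY (u : R) (W : Finset R⟦X⟧) (d : ℕ) : Submodule F⟦X⟧ R⟦X⟧ :=
  span F⟦X⟧ (Set.image2 (fun j v => C (u ^ j) * v) (Set.Iic d) (W : Set R⟦X⟧))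

lemma YY_mono (u : R) (W : Finset R⟦X⟧) {d d' : ℕ} (h : d ≤ d') : YY F u W d ≤ YY F u W d' :=
  span_mono (Set.image2_subset_right (Set.Iic_subset_Iic.2 h))

variable (F) in
/-- Multipliers of degree `e`. -/
def Mul (u : R) (W : Finset R⟦X⟧) (c : R⟦X⟧) (e : ℕ) : Prop :=
  ∀ d y, y ∈ YY F u W d → c * y ∈ YY F u W (d + e)

lemma Mul.mono {u : R} {W : Finset R⟦X⟧} {c : R⟦X⟧} {e e' : ℕ} (h : Mul F u W c e)
    (he : e ≤ e') : Mul F u W c e' := fun d y hy => YY_mono u W (by omega) (h d y hy)

lemma Mul.one (u : R) (W : Finset R⟦X⟧) : Mul F u W 1 0 := fun d y hy => by simpa using hy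

lemma Mul.mul {u : R} {W : Finset R⟦X⟧} {c c' : R⟦X⟧} {e e' : ℕ} (h : Mul F u W c e)
    (h' : Mul F u W c' e') : Mul F u W (c * c') (e' + e) := fun d y hy => by
  rw [mul_assoc, ← add_assoc]
  exact h _ _ (h' d y hy)

lemma Mul.pow (u : R) (W : Finset R⟦X⟧) (t : ℕ) : Mul F u W (C (u ^ t)) t := by
  intro d y hy
  induction hy using span_induction with
  | mem x hx =>
    obtain ⟨j, hj, v, hv, rfl⟩ := hx
    refine subset_span ⟨j + t, by simpa using hj, v, hv, ?_⟩
    simp only [pow_add, map_mul]
    ring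
  | zero => simp
  | add x y _ _ hx hy => rw [mul_add]; exact add_mem hx hy
  | smul a x _ hx => rw [mul_smul_comm]; exact smul_mem _ _ hx

lemma Mul.powX (u : R) (W : Finset R⟦X⟧) (t : ℕ) : Mul F u W (C (u ^ t) * X) t := by
  intro d y hy
  have := smul_mem _ (X : F⟦X⟧) (Mul.pow (F := F) u W t d y hy)
  rw [A_smul, map_X] at this
  rw [mul_comm (C _), mul_assoc]
  exact this

lemma Mul.fac (u : R) (W : Finset R⟦X⟧) (t : ℕ) : Mul F u W (1 - C (u ^ t) * X) t := by
  intro d y hy
  rw [sub_mul, one_mul]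
  exact sub_mem (YY_mono u W (by omega) hy) (Mul.powX u W t d y hy)

lemma Mul.prod {u : R} {W : Finset R⟦X⟧} {ι : Type*} (s : Finset ι) (c : ι → R⟦X⟧) (e : ℕ)
    (h : ∀ i ∈ s, Mul F u W (c i) e) : Mul F u W (∏ i ∈ s, c i) (s.card * e) := by
  classical
  induction s using Finset.induction_on with
  | empty => simpa using Mul.one u W
  | insert i s hi ih =>
    rw [Finset.prod_insert hi, Finset.card_insert_of_notMem hi, add_mul, one_mul]
    exact (h i (by simp)).mul (ih fun j hj => h j (by simp [hj]))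

lemma span_le_YY (u : R) (W : Finset R⟦X⟧) {y : R⟦X⟧} (hy : y ∈ span F (W : Set R⟦X⟧)) :
    y ∈ YY F u W 0 := by
  induction hy using span_induction with
  | mem x hx => exact subset_span ⟨0, by simp, x, hx, by simp⟩
  | zero => simp
  | add x y _ _ hx hy => exact add_mem hx hy
  | smul a x _ hx =>
    have := smul_mem _ (C a : F⟦X⟧) hx
    rw [A_smul, map_C] at this
    rw [Algebra.smul_def, PowerSeries.algebraMap_apply]
    exact this

variable (F) in
/-- Closedness under the `q`-difference system. -/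
def Clo {n : ℕ} (q : R) (a : Fin n → R) (W : Finset R⟦X⟧) : Prop :=
  ∀ h ∈ span F (W : Set R⟦X⟧), ∃ g : Fin n → R⟦X⟧, (∀ i, g i ∈ span F (W : Set R⟦X⟧)) ∧
    rescale q h = h - ∑ i, mm (a i) * g i

/-- The denominators. -/
noncomputable def den (u : R) (n j : ℕ) : R⟦X⟧ :=
  ∏ t ∈ Finset.range j, ∏ i : Fin n, (1 - C (u ^ (i.val + (n + 1) * t)) * X)

lemma den_const (u : R) (n j : ℕ) : constantCoeff (den u n j) = 1 := by
  simp [den, map_prod]

lemma den_mem (u : R) {n : ℕ} (W : Finset R⟦X⟧)
    (hW : Clo F (u ^ (n + 1)) (fun i : Fin n => u ^ i.val) W) (N : ℕ) :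
    ∀ j ≤ N, ∀ h ∈ span F (W : Set R⟦X⟧),
      den u n j * rescale (u ^ ((n + 1) * j)) h ∈ YY F u W (j * (n * ((n + 1) * N))) := by
  intro j
  induction j with
  | zero => intro _ h hh; simpa [den, rescale_one] using span_le_YY u W hh
  | succ j ih =>
    intro hj h hh
    obtain ⟨g, hg, e⟩ := hW h hh
    have b1 : ∀ i : Fin n, Mul F u W (1 - C (u ^ (i.val + (n + 1) * j)) * X) ((n + 1) * N) :=
      fun i => (Mul.fac u W _).mono (by have := i.2; nlinarith)
    have e1 : den u n (j + 1) * rescale (u ^ ((n + 1) * (j + 1))) h =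
        (∏ i : Fin n, (1 - C (u ^ (i.val + (n + 1) * j)) * X)) *
          (den u n j * rescale (u ^ ((n + 1) * j)) h) -
        ∑ i : Fin n, ((C (u ^ ((n + 1) * j)) * X) *
          ∏ i' ∈ Finset.univ.erase i, (1 - C (u ^ (i'.val + (n + 1) * j)) * X)) *
          (den u n j * rescale (u ^ ((n + 1) * j)) (g i)) := by
      rw [mul_add, mul_one, pow_add, mul_comm (u ^ _), ← rescale_rescale, e, map_sub, map_sum,
        den, Finset.prod_range_succ, ← den, mul_sub, Finset.mul_sum]
      congr 1
      · ring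
      · refine Finset.sum_congr rfl fun i _ => ?_
        have s := congrArg (rescale (u ^ ((n + 1) * j))) (mm_spec (u ^ i.val))
        rw [map_mul, map_sub, map_one, map_mul, rescale_X, rescale_C'] at s
        rw [← Finset.mul_prod_erase _ _ (Finset.mem_univ i), map_mul, pow_add, map_mul]
        linear_combination (den u n j * rescale (u ^ ((n + 1) * j)) (g i) *
          ∏ i' ∈ Finset.univ.erase i, (1 - C (u ^ (i'.val + (n + 1) * j)) * X)) * s
    rw [e1, add_mul, one_mul]
    refine sub_mem ?_ (sum_mem fun i _ => ?_)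
    · have := Mul.prod Finset.univ _ _ (fun i _ => b1 i) _ _ (ih (by omega) h hh)
      simpa using this
    · have h1 := Mul.prod (Finset.univ.erase i) _ _ (fun i _ => b1 i)
      have h2 := ((Mul.powX (F := F) u W ((n + 1) * j)).mono
        (Nat.mul_le_mul_left (n + 1) (by omega : j ≤ N))).mul h1
      refine (h2.mono (le_of_eq ?_)) _ _ (ih (by omega) _ (hg i))
      rw [Finset.card_erase_of_mem (Finset.mem_univ i), Finset.card_univ, Fintype.card_fin]
      have := i.2
      obtain ⟨m, rfl⟩ : ∃ m, n = m + 1 := ⟨n - 1, by omega⟩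
      simp only [Nat.add_sub_cancel]
      ring

theorem zero_est [IsDomain R] (u : R) (hu : LinearIndependent F fun j : ℕ => u ^ j) {n : ℕ}
    (W : Finset R⟦X⟧) (hW : Clo F (u ^ (n + 1)) (fun i : Fin n => u ^ i.val) W) (N : ℕ)
    (hN : W.card ≤ N) {G : R⟦X⟧} (hG : G ∈ span F (W : Set R⟦X⟧)) (h0 : G ≠ 0) :
    ∃ l < (n + 1) * (N * (N * N)) + 1, coeff l G ≠ 0 := by
  classical
  have hex : ∃ l, coeff l G ≠ 0 := by
    by_contra hc
    push Not at hc
    exact h0 (PowerSeries.ext fun l => by simp [hc l])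
  refine ⟨Nat.find hex, ?_, Nat.find_spec hex⟩
  by_contra hlt
  set o := Nat.find hex with ho
  obtain ⟨G', hG'⟩ : X ^ o ∣ G := X_pow_dvd_iff.2 fun m hm => by
    simpa using Nat.find_min hex hm
  have hγ : constantCoeff G' ≠ 0 := by
    have := Nat.find_spec hex
    rw [← ho, hG'] at this
    have e := coeff_X_pow_mul G' o 0
    rw [zero_add] at e
    rw [e] at this
    simpa using this
  set d := N * (n * ((n + 1) * N)) with hd
  have hE : N * d + 1 ≤ (n + 1) * o := by
    have : (n + 1) * (N * (N * N)) + 1 ≤ o := by omega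
    have := Nat.mul_le_mul_left (n + 1) this
    refine le_trans ?_ this
    rw [hd]
    nlinarith [Nat.zero_le (N * (N * N)), Nat.zero_le (n * (N * (N * N)))]
  let H : Fin (N + 1) × Fin (N * d + 1) → R⟦X⟧ := fun t =>
    C (u ^ (t.2.val + (n + 1) * o * t.1.val)) * (den u n t.1 * rescale (u ^ ((n + 1) * t.1)) G')
  have i1 : LinearIndependent F⟦X⟧ H := by
    apply indep_of_const
    have inj : Function.Injective fun t : Fin (N + 1) × Fin (N * d + 1) =>
        t.2.val + (n + 1) * o * t.1.val := by
      rintro ⟨i, j⟩ ⟨i', j'⟩ e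
      simp only at e
      have hj := j.2.trans_le hE
      have hj' := j'.2.trans_le hE
      have e1 := congrArg (· / ((n + 1) * o)) e
      have e2 := congrArg (· % ((n + 1) * o)) e
      have pos : 0 < (n + 1) * o := by omega
      simp only [Nat.add_mul_div_left _ _ pos, Nat.div_eq_of_lt hj, Nat.div_eq_of_lt hj',
        zero_add] at e1
      simp only [Nat.add_mul_mod_self_left, Nat.mod_eq_of_lt hj, Nat.mod_eq_of_lt hj'] at e2
      exact Prod.ext (Fin.ext e1) (Fin.ext e2)
    have := (hu.comp _ inj).map' (LinearMap.mulRight F (constantCoeff G'))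
      (LinearMap.ker_eq_bot.2 fun x y e => mul_right_cancel₀ hγ e)
    have e : (fun t => constantCoeff (H t)) = LinearMap.mulRight F (constantCoeff G') ∘
        (fun j : ℕ => u ^ j) ∘ fun t : Fin (N + 1) × Fin (N * d + 1) =>
          t.2.val + (n + 1) * o * t.1.val := by
      funext t
      simp [H, den_const, ← coeff_zero_eq_constantCoeff_apply (rescale _ _)]
    rw [e]
    exact this
  have i2 := i1.map' (LinearMap.mulLeft F⟦X⟧ (X ^ o : R⟦X⟧))
    (LinearMap.ker_eq_bot.2 fun x y e => mul_left_cancel₀ (pow_ne_zero _ X_ne_zero) e)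
  let S : Finset R⟦X⟧ := (Finset.range (d + N * d + 1) ×ˢ W).image fun p => C (u ^ p.1) * p.2
  have le := linearIndependent_le_span' _ i2 (S : Set R⟦X⟧) (by
    rintro _ ⟨⟨i, j⟩, rfl⟩
    have m1 := den_mem u W hW N i (by have := i.2; omega) G hG
    have m2 := Mul.pow (F := F) u W j _ _ m1
    have m3 := YY_mono u W (show i.val * (n * ((n + 1) * N)) + j.val ≤ d + N * d from
      Nat.add_le_add (Nat.mul_le_mul_right _ (by have := i.2; omega))
        (by have := j.2; omega)) m2
    have e : (LinearMap.mulLeft F⟦X⟧ (X ^ o : R⟦X⟧) ∘ H) (i, j) =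
        C (u ^ j.val) * (den u n i * rescale (u ^ ((n + 1) * i.val)) G) := by
      simp only [H, Function.comp, LinearMap.mulLeft_apply, hG', map_mul, map_pow, rescale_X,
        pow_add, mul_pow, ← pow_mul]
      ring
    rw [e]
    refine span_mono ?_ m3
    rintro _ ⟨t, ht, v, hv, rfl⟩
    simp only [S, Finset.coe_image]
    exact ⟨(t, v), by simp at ht ⊢; exact ⟨by omega, hv⟩, rfl⟩)
  have c1 : S.card ≤ (d + N * d + 1) * N := by
    refine Finset.card_image_le.trans ?_
    rw [Finset.card_product, Finset.card_range]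
    exact Nat.mul_le_mul_left _ hN
  simp only [Cardinal.mk_fintype, Fintype.card_prod, Fintype.card_fin, Finset.coe_sort_coe,
    Fintype.card_coe, Nat.cast_le] at le
  nlinarith

end Vale.Agent.P314
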